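import Mathlib

/-! # The decreasing minorant of the symmetrised Poisson kernel, and Abel summation -/

namespace Vale.Agent.P321.R3.H630

open MeasureTheory intervalIntegral Set

/-- The symmetrised kernel. -/
noncomputable def KK (a y x : ℝ) : ℝ := 1 / (a ^ 2 + (x + y) ^ 2) + 1 / (a ^ 2 + (x - y) ^ 2)

/-- The decreasing minorant. -/
noncomputable def qq (a y x : ℝ) : ℝ := min (KK a y 0) (KK a y x)

theorem KK_eq {a : ℝ} (ha : 0 < a) (y x : ℝ) : KK a y x =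
    2 * (a ^ 2 + y ^ 2 + x ^ 2) / ((a ^ 2 + y ^ 2 + x ^ 2) ^ 2 - 4 * y ^ 2 * x ^ 2) := by
  have p1 : 0 < a ^ 2 + (x + y) ^ 2 := by positivity
  have p2 : 0 < a ^ 2 + (x - y) ^ 2 := by positivity
  have e : (a ^ 2 + y ^ 2 + x ^ 2) ^ 2 - 4 * y ^ 2 * x ^ 2 =
      (a ^ 2 + (x + y) ^ 2) * (a ^ 2 + (x - y) ^ 2) := by ring
  rw [e]
  unfold KK
  field_simp
  ring

theorem den_pos {a : ℝ} (ha : 0 < a) (y x : ℝ) :
    0 < (a ^ 2 + y ^ 2 + x ^ 2) ^ 2 - 4 * y ^ 2 * x ^ 2 := by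
  have p1 : 0 < a ^ 2 + (x + y) ^ 2 := by positivity
  have p2 : 0 < a ^ 2 + (x - y) ^ 2 := by positivity
  have e : (a ^ 2 + y ^ 2 + x ^ 2) ^ 2 - 4 * y ^ 2 * x ^ 2 =
      (a ^ 2 + (x + y) ^ 2) * (a ^ 2 + (x - y) ^ 2) := by ring
  rw [e]
  exact mul_pos p1 p2

theorem KK_pos {a : ℝ} (ha : 0 < a) (y x : ℝ) : 0 < KK a y x := by
  unfold KK
  positivity

/-- before `√(3y²-a²)` the kernel is above its value at `0` -/
theorem KK_zero_le {a : ℝ} (ha : 0 < a) {y x : ℝ} (hx : x ^ 2 ≤ 3 * y ^ 2 - a ^ 2) :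
    KK a y 0 ≤ KK a y x := by
  rw [KK_eq ha, KK_eq ha, div_le_div_iff₀ (den_pos ha y 0) (den_pos ha y x)]
  have hS : 0 < a ^ 2 + y ^ 2 := by positivity
  have h1 : 0 ≤ x ^ 2 * (3 * y ^ 2 - a ^ 2 - x ^ 2) :=
    mul_nonneg (sq_nonneg x) (by linarith)
  have h2 : 0 ≤ 2 * (a ^ 2 + y ^ 2) * (x ^ 2 * (3 * y ^ 2 - a ^ 2 - x ^ 2)) := by positivity
  have e : 2 * (a ^ 2 + y ^ 2 + x ^ 2) * ((a ^ 2 + y ^ 2 + 0 ^ 2) ^ 2 - 4 * y ^ 2 * 0 ^ 2) -
      2 * (a ^ 2 + y ^ 2 + 0 ^ 2) * ((a ^ 2 + y ^ 2 + x ^ 2) ^ 2 - 4 * y ^ 2 * x ^ 2) =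
      2 * (a ^ 2 + y ^ 2) * (x ^ 2 * (3 * y ^ 2 - a ^ 2 - x ^ 2)) := by ring
  linarith

/-- beyond it the kernel decreases -/
theorem KK_anti {a : ℝ} (ha : 0 < a) {y x z : ℝ} (hx0 : 0 ≤ x) (hxz : x ≤ z)
    (hx : 3 * y ^ 2 - a ^ 2 ≤ x ^ 2) : KK a y z ≤ KK a y x := by
  rw [KK_eq ha, KK_eq ha, div_le_div_iff₀ (den_pos ha y z) (den_pos ha y x)]
  have hS : 0 < a ^ 2 + y ^ 2 := by positivity
  have hXZ : x ^ 2 ≤ z ^ 2 := pow_le_pow_left₀ hx0 hxz 2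
  have h0 : 0 ≤ (a ^ 2 + y ^ 2) * (x ^ 2 - (3 * y ^ 2 - a ^ 2)) := mul_nonneg hS.le (by linarith)
  have h1 : 0 ≤ (a ^ 2 + y ^ 2) * (z ^ 2 + x ^ 2) + (a ^ 2 + y ^ 2) ^ 2 -
      4 * y ^ 2 * (a ^ 2 + y ^ 2) + x ^ 2 * z ^ 2 := by
    have : 0 ≤ (a ^ 2 + y ^ 2) * z ^ 2 + x ^ 2 * z ^ 2 := by positivity
    linarith
  have h2 : 0 ≤ 2 * ((z ^ 2 - x ^ 2) * ((a ^ 2 + y ^ 2) * (z ^ 2 + x ^ 2) + (a ^ 2 + y ^ 2) ^ 2 -
      4 * y ^ 2 * (a ^ 2 + y ^ 2) + x ^ 2 * z ^ 2)) := by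
    have := mul_nonneg (sub_nonneg.2 hXZ) h1
    linarith
  have e : 2 * (a ^ 2 + y ^ 2 + x ^ 2) * ((a ^ 2 + y ^ 2 + z ^ 2) ^ 2 - 4 * y ^ 2 * z ^ 2) -
      2 * (a ^ 2 + y ^ 2 + z ^ 2) * ((a ^ 2 + y ^ 2 + x ^ 2) ^ 2 - 4 * y ^ 2 * x ^ 2) =
      2 * ((z ^ 2 - x ^ 2) * ((a ^ 2 + y ^ 2) * (z ^ 2 + x ^ 2) + (a ^ 2 + y ^ 2) ^ 2 -
      4 * y ^ 2 * (a ^ 2 + y ^ 2) + x ^ 2 * z ^ 2)) := by ring
  linarith

/-- the minorant is below the kernel to the left -/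
theorem qq_le {a : ℝ} (ha : 0 < a) {y x z : ℝ} (hx0 : 0 ≤ x) (hxz : x ≤ z) :
    qq a y z ≤ KK a y x := by
  rcases le_total (x ^ 2) (3 * y ^ 2 - a ^ 2) with h | h
  · exact (min_le_left _ _).trans (KK_zero_le ha h)
  · exact (min_le_right _ _).trans (KK_anti ha hx0 hxz h)

theorem qq_anti {a : ℝ} (ha : 0 < a) {y x z : ℝ} (hx0 : 0 ≤ x) (hxz : x ≤ z) :
    qq a y z ≤ qq a y x :=
  le_min (min_le_left _ _) (qq_le ha hx0 hxz)

theorem qq_nonneg {a : ℝ} (ha : 0 < a) (y x : ℝ) : 0 ≤ qq a y x :=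
  le_min (KK_pos ha _ _).le (KK_pos ha _ _).le

theorem continuous_KK {a : ℝ} (ha : 0 < a) (y : ℝ) : Continuous (KK a y) := by
  unfold KK
  apply Continuous.add
  · exact Continuous.div continuous_const (by fun_prop) (fun x => by positivity)
  · exact Continuous.div continuous_const (by fun_prop) (fun x => by positivity)

theorem continuous_qq {a : ℝ} (ha : 0 < a) (y : ℝ) : Continuous (qq a y) :=
  continuous_const.min (continuous_KK ha y)

theorem sum_ge {a : ℝ} (ha : 0 < a) (y : ℝ) {h : ℝ} (hh : 0 < h) (N : ℕ) :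
    ∫ x in h..((N + 1) * h), qq a y x ≤ h * ∑ j ∈ Finset.range N, qq a y ((j + 1) * h) := by
  have hanti : AntitoneOn (fun t => qq a y (t * h)) (Icc (1 : ℝ) (1 + N)) := by
    intro s hs t _ hst
    exact qq_anti ha (mul_nonneg (by linarith [hs.1]) hh.le) (by gcongr)
  have h1 := hanti.integral_le_sum
  have h2 : ∫ x in h..((N + 1) * h), qq a y x = h * ∫ t in (1 : ℝ)..(1 + N), qq a y (t * h) := by
    rw [intervalIntegral.integral_comp_mul_right (fun x => qq a y x) hh.ne', smul_eq_mul,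
      ← mul_assoc, mul_inv_cancel₀ hh.ne', one_mul, one_mul, add_comm (1 : ℝ) (N : ℝ)]
  rw [h2]
  apply mul_le_mul_of_nonneg_left _ hh.le
  refine h1.trans (le_of_eq ?_)
  apply Finset.sum_congr rfl
  intro j _
  rw [add_comm (1 : ℝ) (j : ℝ)]

theorem integral_KK {a : ℝ} (ha : 0 < a) (y u v : ℝ) : ∫ x in u..v, KK a y x =
    (Real.arctan ((v + y) / a) + Real.arctan ((v - y) / a)) / a -
      (Real.arctan ((u + y) / a) + Real.arctan ((u - y) / a)) / a := by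
  apply intervalIntegral.integral_eq_sub_of_hasDerivAt (f := fun x =>
    (Real.arctan ((x + y) / a) + Real.arctan ((x - y) / a)) / a)
  · intro x _
    have h1 : HasDerivAt (fun x => (x + y) / a) (1 / a) x :=
      ((hasDerivAt_id x).add_const y).div_const a
    have h2 : HasDerivAt (fun x => (x - y) / a) (1 / a) x :=
      ((hasDerivAt_id x).sub_const y).div_const a
    have h3 := ((h1.arctan).add (h2.arctan)).div_const a
    refine h3.congr_deriv ?_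
    unfold KK
    have p1 : 0 < a ^ 2 + (x + y) ^ 2 := by positivity
    have p2 : 0 < a ^ 2 + (x - y) ^ 2 := by positivity
    have p3 : 0 < 1 + ((x + y) / a) ^ 2 := by positivity
    have p4 : 0 < 1 + ((x - y) / a) ^ 2 := by positivity
    field_simp
  · exact (continuous_KK ha y).intervalIntegrable _ _

theorem arctan_ge {t : ℝ} (ht : 0 < t) : Real.pi / 2 - 1 / t ≤ Real.arctan t := by
  have h1 : Real.arctan t = Real.pi / 2 - Real.arctan t⁻¹ := by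
    rw [Real.arctan_inv_of_pos ht]; ring
  rw [h1, one_div]
  have h2 : Real.arctan t⁻¹ ≤ t⁻¹ := by
    have h3 : 0 < Real.arctan t⁻¹ := by
      rw [← Real.arctan_zero]
      exact Real.arctan_strictMono (by positivity)
    have h4 := Real.lt_tan h3 (Real.arctan_lt_pi_div_two _)
    rw [Real.tan_arctan] at h4
    exact h4.le
  linarith

/-- the integral of the minorant -/
theorem integral_qq {a : ℝ} (ha : 0 < a) {y X W : ℝ} (hX0 : 0 ≤ X) (hXW : X ≤ W)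
    (hy : |y| < W)
    (hX : (3 * y ^ 2 - a ^ 2 ≤ 0 ∧ X = 0) ∨ X ^ 2 = 3 * y ^ 2 - a ^ 2) :
    X * KK a y 0 + (Real.pi - a / (W + y) - a / (W - y) - Real.arctan ((X + y) / a) -
      Real.arctan ((X - y) / a)) / a ≤ ∫ x in (0 : ℝ)..W, qq a y x := by
  have hy' := abs_lt.1 hy
  have hc := continuous_qq ha y
  have hsplit : ∫ x in (0 : ℝ)..W, qq a y x =
      (∫ x in (0 : ℝ)..X, qq a y x) + ∫ x in X..W, qq a y x :=
    (intervalIntegral.integral_add_adjacent_intervals (hc.intervalIntegrable _ _)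
      (hc.intervalIntegrable _ _)).symm
  have hX3 : 3 * y ^ 2 - a ^ 2 ≤ X ^ 2 := by
    rcases hX with ⟨h, rfl⟩ | h
    · simpa using h
    · exact h.ge
  have h1 : X * KK a y 0 ≤ ∫ x in (0 : ℝ)..X, qq a y x := by
    have e : X * KK a y 0 = ∫ x in (0 : ℝ)..X, KK a y 0 := by
      rw [intervalIntegral.integral_const, smul_eq_mul, sub_zero]
    rw [e]
    apply intervalIntegral.integral_mono_on hX0 (by simp) (hc.intervalIntegrable _ _)
    intro x hx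
    apply le_min le_rfl
    rcases hX with ⟨_, h⟩ | h
    · have : x = 0 := le_antisymm (by rw [← h]; exact hx.2) hx.1
      rw [this]
    · exact KK_zero_le ha (by rw [← h]; exact pow_le_pow_left₀ hx.1 hx.2 2)
  have h2 : ∫ x in X..W, KK a y x ≤ ∫ x in X..W, qq a y x := by
    apply intervalIntegral.integral_mono_on hXW ((continuous_KK ha y).intervalIntegrable _ _)
      (hc.intervalIntegrable _ _)
    intro x hx
    apply le_min _ le_rfl
    -- `K x ≤ K 0` beyond `X`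
    have hx0 : 0 ≤ x := hX0.trans hx.1
    have hxx : 3 * y ^ 2 - a ^ 2 ≤ x ^ 2 := hX3.trans (pow_le_pow_left₀ hX0 hx.1 2)
    rw [KK_eq ha, KK_eq ha, div_le_div_iff₀ (den_pos ha y x) (den_pos ha y 0)]
    have h1 : 0 ≤ 2 * (a ^ 2 + y ^ 2) * (x ^ 2 * (x ^ 2 - (3 * y ^ 2 - a ^ 2))) := by
      have := mul_nonneg (sq_nonneg x) (sub_nonneg.2 hxx)
      positivity
    have e : 2 * (a ^ 2 + y ^ 2 + 0 ^ 2) * ((a ^ 2 + y ^ 2 + x ^ 2) ^ 2 - 4 * y ^ 2 * x ^ 2) -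
        2 * (a ^ 2 + y ^ 2 + x ^ 2) * ((a ^ 2 + y ^ 2 + 0 ^ 2) ^ 2 - 4 * y ^ 2 * 0 ^ 2) =
        2 * (a ^ 2 + y ^ 2) * (x ^ 2 * (x ^ 2 - (3 * y ^ 2 - a ^ 2))) := by ring
    linarith
  rw [integral_KK ha] at h2
  have w1 : 0 < (W + y) / a := div_pos (by linarith) ha
  have w2 : 0 < (W - y) / a := div_pos (by linarith) ha
  have t1 := arctan_ge w1
  have t2 := arctan_ge w2
  rw [one_div_div] at t1 t2
  rw [hsplit]
  have h3 : (Real.pi - a / (W + y) - a / (W - y) - Real.arctan ((X + y) / a) -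
      Real.arctan ((X - y) / a)) / a ≤
      (Real.arctan ((W + y) / a) + Real.arctan ((W - y) / a)) / a -
      (Real.arctan ((X + y) / a) + Real.arctan ((X - y) / a)) / a := by
    rw [← sub_div]
    apply div_le_div_of_nonneg_right _ ha.le
    linarith
  linarith

/-- Abel summation: partial sums bounded below, decreasing nonnegative weights. -/
theorem abel5 {N : ℕ} (hN : 1 ≤ N) {φ k : ℕ → ℝ} {σ τ : ℝ}
    (hS : ∀ L ≤ N, σ * L - τ ≤ ∑ j ∈ Finset.range L, φ j)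
    (hk0 : ∀ j, 0 ≤ k j) (hk : ∀ j, k (j + 1) ≤ k j) :
    σ * (∑ j ∈ Finset.range N, k j) - τ * k 0 ≤ ∑ j ∈ Finset.range N, φ j * k j := by
  have key : ∀ n, n + 1 ≤ N → ((∑ j ∈ Finset.range (n + 1), φ j) - σ * (n + 1 : ℕ) + τ) * k n +
      σ * (∑ j ∈ Finset.range (n + 1), k j) - τ * k 0 ≤ ∑ j ∈ Finset.range (n + 1), φ j * k j := by
    intro n
    induction n with
    | zero =>
      intro _
      simp only [zero_add, Finset.sum_range_one, Nat.cast_one, mul_one]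
      apply le_of_eq
      ring
    | succ n ih =>
      intro hn
      have h1 := ih (by omega)
      rw [Finset.sum_range_succ (fun j => φ j * k j), Finset.sum_range_succ (fun j => k j),
        Finset.sum_range_succ φ]
      have h2 := hS (n + 1) (by omega)
      have h3 : 0 ≤ (∑ j ∈ Finset.range (n + 1), φ j) - σ * (n + 1 : ℕ) + τ := by linarith
      have h4 := mul_le_mul_of_nonneg_left (hk n) h3
      push_cast at h1 h2 h3 h4 ⊢
      nlinarith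
  obtain ⟨n, rfl⟩ : ∃ n, N = n + 1 := ⟨N - 1, by omega⟩
  have h1 := key n le_rfl
  have h2 := hS (n + 1) le_rfl
  have h3 : 0 ≤ ((∑ j ∈ Finset.range (n + 1), φ j) - σ * (n + 1 : ℕ) + τ) * k n :=
    mul_nonneg (by linarith) (hk0 n)
  linarith

end Vale.Agent.P321.R3.H630
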