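import Vale.Agent.P321.R3.H613.Count7
import Vale.Agent.P321.R3.H614.GNum
import Vale.Agent.P321.R3.H630.Kern5

/-! # Poisson-Jensen with all windows at once (exponent 5) -/

namespace Vale.Agent.P321.R3.H630

open Complex MeasureTheory Metric Real Set Vale.Agent.P321.UB Vale.Agent.P321.R3.H613

theorem arctan_symm (a X y : ℝ) : Real.arctan ((X + y) / a) + Real.arctan ((X - y) / a) =
    Real.arctan ((X + |y|) / a) + Real.arctan ((X - |y|) / a) := by
  rcases le_total 0 y with h | h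
  · rw [abs_of_nonneg h]
  · rw [abs_of_nonpos h, ← sub_eq_add_neg, sub_neg_eq_add, add_comm]

/-- Lower bound of the integral of the minorant. -/
theorem int_low {α y W : ℝ} (hα : 0 < α) (hy : |y| ≤ 5.1 * α) (hW : 203 * α ≤ W) :
    2.8 * min 1 (1.262 - |y| / α / 4) + 0.0018 ≤ α * ∫ x in (0 : ℝ)..W, qq α y x := by
  have hyW : |y| < W := by linarith
  have hy' := abs_lt.1 hyW
  have hya := abs_le.1 hy
  have htail : α / (W + y) + α / (W - y) ≤ 0.0102 := by
    have h1 : α / (W + y) ≤ 0.0051 := by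
      rw [div_le_iff₀ (by linarith)]; linarith
    have h2 : α / (W - y) ≤ 0.0051 := by
      rw [div_le_iff₀ (by linarith)]; linarith
    linarith
  set r := |y| / α with hr
  have hr0 : 0 ≤ r := by positivity
  have hyr : |y| = r * α := by rw [hr]; field_simp
  have hy2 : y ^ 2 = r ^ 2 * α ^ 2 := by rw [← sq_abs, hyr]; ring
  have hr5 : r ≤ 5.1 := by rw [hr, div_le_iff₀ hα]; exact hy
  rcases le_or_gt (3 * r ^ 2) 1 with h | h
  · have h3 : 3 * y ^ 2 - α ^ 2 ≤ 0 := by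
      rw [hy2]
      have : (3 * r ^ 2) * α ^ 2 ≤ 1 * α ^ 2 := by gcongr
      linarith
    have hI := integral_qq hα (y := y) (X := 0) (W := W) le_rfl (by linarith) hyW
      (Or.inl ⟨h3, rfl⟩)
    rw [zero_mul, zero_add, zero_add, zero_sub, neg_div, Real.arctan_neg] at hI
    have h4 : Real.pi - 0.0102 ≤ α * ∫ x in (0 : ℝ)..W, qq α y x := by
      have := mul_le_mul_of_nonneg_left hI hα.le
      rw [mul_div_cancel₀ _ hα.ne'] at this
      linarith
    have h5 : min 1 (1.262 - r / 4) ≤ 1 := min_le_left _ _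
    linarith [Real.pi_gt_three]
  · have hr0' : 0 < r := by
      rcases hr0.lt_or_eq with h' | h'
      · exact h'
      · rw [← h'] at h; norm_num at h
    set x := Real.sqrt (3 * r ^ 2 - 1) with hx
    have hx0 : 0 ≤ x := Real.sqrt_nonneg _
    have hxx : x ^ 2 = 3 * r ^ 2 - 1 := Real.sq_sqrt (by linarith)
    have hX : (x * α) ^ 2 = 3 * y ^ 2 - α ^ 2 := by
      rw [hy2, mul_pow, hxx]; ring
    have hx9 : x ≤ 9 := by
      have : x ^ 2 ≤ 9 ^ 2 := by
        rw [hxx]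
        nlinarith
      exact (pow_le_pow_iff_left₀ hx0 (by norm_num) (by norm_num)).1 this
    have hXW : x * α ≤ W := by
      have : x * α ≤ 9 * α := by gcongr
      linarith
    have hI := integral_qq hα (y := y) (X := x * α) (W := W) (by positivity) hXW hyW
      (Or.inr hX)
    have hK : α * (x * α * KK α y 0) = 2 * x / (1 + r ^ 2) := by
      rw [KK_eq hα, hy2]
      have : 0 < 1 + r ^ 2 := by positivity
      field_simp
      ring
    have hat : Real.arctan ((x * α + y) / α) + Real.arctan ((x * α - y) / α) =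
        Real.arctan (x + r) + Real.arctan (x - r) := by
      rw [arctan_symm, hyr]
      congr 2 <;> · field_simp
    have h4 : 2 * x / (1 + r ^ 2) + Real.pi - Real.arctan (x - r) - Real.arctan (x + r) - 0.0102 ≤
        α * ∫ x in (0 : ℝ)..W, qq α y x := by
      have h5 := mul_le_mul_of_nonneg_left hI hα.le
      rw [mul_add, hK, mul_div_cancel₀ _ hα.ne'] at h5
      linarith
    have h6 := Vale.Agent.P321.R3.H614.gnum hr0' h.le hr5
    rw [← hx] at h6
    linarith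

/-- Lower bound of the Riemann sum of the minorant. -/
theorem sum_low {α y h : ℝ} {N : ℕ} (hα : 0 < α) (hy : |y| ≤ 5.1 * α) (hh : 0 < h)
    (hh2 : 10 ^ 9 * h ≤ α) (hN : 203 * α ≤ (N + 1) * h) :
    2.8 * min 1 (1.262 - |y| / α / 4) + 0.0017 ≤
      α * (h * ∑ j ∈ Finset.range N, qq α y ((j + 1) * h)) := by
  have h1 := int_low hα hy hN
  have h2 := sum_ge hα y hh N
  have hc := continuous_qq hα y
  have h3 : ∫ x in (0 : ℝ)..((N + 1) * h), qq α y x =
      (∫ x in (0 : ℝ)..h, qq α y x) + ∫ x in h..((N + 1) * h), qq α y x :=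
    (intervalIntegral.integral_add_adjacent_intervals (hc.intervalIntegrable _ _)
      (hc.intervalIntegrable _ _)).symm
  have hK0 : KK α y 0 ≤ 2 / α ^ 2 := by
    unfold KK
    have e1 : 1 / (α ^ 2 + (0 + y) ^ 2) ≤ 1 / α ^ 2 :=
      one_div_le_one_div_of_le (by positivity) (by nlinarith [sq_nonneg (0 + y)])
    have e2 : 1 / (α ^ 2 + (0 - y) ^ 2) ≤ 1 / α ^ 2 :=
      one_div_le_one_div_of_le (by positivity) (by nlinarith [sq_nonneg (0 - y)])
    have e3 : 2 / α ^ 2 = 1 / α ^ 2 + 1 / α ^ 2 := by ring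
    linarith
  have h4 : ∫ x in (0 : ℝ)..h, qq α y x ≤ h * (2 / α ^ 2) := by
    have e : h * (2 / α ^ 2) = ∫ x in (0 : ℝ)..h, (2 / α ^ 2) := by
      rw [intervalIntegral.integral_const, smul_eq_mul, sub_zero]
    rw [e]
    apply intervalIntegral.integral_mono_on hh.le (hc.intervalIntegrable _ _) (by simp)
    intro x _
    exact (min_le_left _ _).trans hK0
  have h5 : α * (h * (2 / α ^ 2)) ≤ 0.0001 := by
    have : α * (h * (2 / α ^ 2)) = 2 * h / α := by field_simp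
    rw [this, div_le_iff₀ hα]
    linarith
  have h6 := mul_le_mul_of_nonneg_left h2 hα.le
  have h7 := mul_le_mul_of_nonneg_left h4 hα.le
  rw [h3, mul_add] at h1
  linarith

/-- The costs of the cells. -/
theorem costs5 {w0 A ε h : ℝ} {s : ℂ} {N m : ℕ} {a : ℕ → ℂ}
    (hreal : ∀ k, (starRingEnd ℂ) (a k) = a k) (h0 : w0 < s.re) (hh : 0 < h)
    (hNh : (N : ℝ) * h ≤ 1) (hA1 : 1 ≤ A)
    (hA : ∀ x : ℝ, ‖expSum m a ((w0 : ℂ) - x * I)‖ ≤ A) (hε : 0 < ε) (hs : ε ≤ ‖expSum m a s‖)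
    {kap : ℕ → ℝ} (hkpos : ∀ j, 0 < kap j)
    (hkap : ∀ j < N, ∀ ξ : ℝ, j * h ≤ ξ → ξ ≤ (j + 1) * h →
      kap j ≤ PK (Complex.exp (-s)) (circleMap 0 (Real.exp (-w0)) ξ) +
        PK (Complex.exp (-s)) (circleMap 0 (Real.exp (-w0)) (-ξ))) :
    ∃ φ x : ℕ → ℝ, (∀ j, 0 ≤ φ j) ∧ (∀ j < N, j * h ≤ x j ∧ x j ≤ (j + 1) * h ∧
      Real.exp (-(φ j)) ≤ ‖expSum m a ((w0 : ℂ) - x j * I)‖) ∧
      (∑ j ∈ Finset.range N, φ j * (kap j * h)) ≤ 2 * π * (Real.log A - Real.log ε) := by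
  classical
  -- the maximum points
  have hmax : ∀ j : ℕ, ∃ x : ℝ, (j * h ≤ x ∧ x ≤ (j + 1) * h) ∧
      ∀ y : ℝ, j * h ≤ y → y ≤ (j + 1) * h →
        ‖expSum m a ((w0 : ℂ) - y * I)‖ ≤ ‖expSum m a ((w0 : ℂ) - x * I)‖ := by
    intro j
    have hcont : Continuous fun x : ℝ => ‖expSum m a ((w0 : ℂ) - x * I)‖ := by
      unfold expSum
      fun_prop
    obtain ⟨x, hx, hx2⟩ := (isCompact_Icc (a := (j : ℝ) * h) (b := (j + 1) * h)).exists_isMaxOn
      ⟨j * h, by constructor <;> nlinarith⟩ hcont.continuousOn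
    exact ⟨x, ⟨hx.1, hx.2⟩, fun y hy1 hy2 => hx2 ⟨hy1, hy2⟩⟩
  choose x hx hxmax using hmax
  have hne : ∀ j < N, expSum m a ((w0 : ℂ) - x j * I) ≠ 0 := by
    intro j hj hzero
    set K : ℝ := (2 * π * (Real.log A - Real.log ε) + 1) / (kap j * h) with hK
    have hkj : 0 < kap j * h := mul_pos (hkpos j) hh
    have hall : ∀ y : ℝ, j * h ≤ y → y ≤ (j + 1) * h → expSum m a ((w0 : ℂ) - y * I) = 0 := by
      intro y hy1 hy2
      have := hxmax j y hy1 hy2
      rw [hzero, norm_zero] at this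
      exact norm_le_zero_iff.1 this
    have hzero_sum := sum_core7 (N := N) (h := h) hreal h0 hh hNh hA
      hε hs (fun _ => 0) kap (fun _ _ => le_rfl) hkap
      (fun k _ y _ _ hy3 => by
        rw [sub_zero]
        exact Real.log_le_log (norm_pos_iff.2 hy3) (hA y))
    have hK0 : 0 ≤ K := by
      apply div_nonneg _ hkj.le
      simp only [zero_mul, Finset.sum_const_zero] at hzero_sum
      linarith
    have := sum_core7 (N := N) (h := h) hreal h0 hh hNh hA
      hε hs (fun k => if k = j then K else 0) kap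
      (fun k _ => by split_ifs <;> [exact hK0; exact le_rfl]) hkap
      (fun k hk y hy1 hy2 hy3 => by
        split_ifs with hkj2
        · subst hkj2
          exact absurd (hall y hy1 hy2) hy3
        · rw [sub_zero]
          exact Real.log_le_log (norm_pos_iff.2 hy3) (hA y))
    rw [Finset.sum_eq_single j] at this
    · rw [if_pos rfl, hK, div_mul_cancel₀ _ hkj.ne'] at this
      linarith
    · intro k _ hkj2
      rw [if_neg hkj2, zero_mul]
    · intro hj2
      exact absurd (Finset.mem_range.2 hj) hj2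
  refine ⟨fun j => if j < N then
    Real.log A - Real.log ‖expSum m a ((w0 : ℂ) - x j * I)‖ else 0, x, ?_, ?_, ?_⟩
  · intro j
    simp only
    split_ifs with hj
    · have := Real.log_le_log (norm_pos_iff.2 (hne j hj)) (hA (x j))
      linarith
    · exact le_rfl
  · intro j hj
    refine ⟨(hx j).1, (hx j).2, ?_⟩
    have hp := norm_pos_iff.2 (hne j hj)
    simp only [if_pos hj]
    rw [neg_sub, Real.exp_sub, Real.exp_log hp, Real.exp_log (by linarith)]
    exact div_le_self hp.le hA1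
  · refine sum_core7 (N := N) (h := h) hreal h0 hh hNh hA hε hs _ kap ?_ hkap ?_
    · intro j hj
      simp only [if_pos hj]
      have := Real.log_le_log (norm_pos_iff.2 (hne j hj)) (hA (x j))
      linarith
    · intro j hj y hy1 hy2 hy3
      have := Real.log_le_log (norm_pos_iff.2 hy3) (hxmax j y hy1 hy2)
      simp only [if_pos hj]
      linarith

/-- final arithmetic -/
theorem arith5 {c g α h M k0 E S : ℝ} (hc0 : 0 < c) (hg0 : 0 < g) (hα : 0 < α) (hh : 0 < h)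
    (hk00 : α * h * k0 ≤ 0.00001) (hQ : 2.8 * g + 0.0017 ≤ α * (h * M))
    (habel : 0.99 * c / 8 * M - 3 * c / 8 * k0 ≤ S)
    (hmain : 0.9979 * 2 * α * h * S ≤ 2 * π * E) (hc : 9.1 * E ≤ c * g) : False := by
  have hαh : 0 < 0.9979 * 2 * α * h := by positivity
  have f1 : 0.9979 * 2 * α * h * (0.99 * c / 8 * M - 3 * c / 8 * k0) ≤ 2 * π * E :=
    (mul_le_mul_of_nonneg_left habel hαh.le).trans hmain
  have hcg : 0 < c * g := mul_pos hc0 hg0
  have f2 : 2 * π * E ≤ 2 * π * (c * g * (10 / 91)) := by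
    have h1 : E ≤ c * g * (10 / 91) := by
      have : (91 / 10 : ℝ) * E ≤ c * g := by
        have h9 : (9.1 : ℝ) = 91 / 10 := by norm_num
        rwa [h9] at hc
      linarith
    have hπ := Real.pi_pos
    exact mul_le_mul_of_nonneg_left h1 (by positivity)
  have f3 : 2 * π * (c * g * (10 / 91)) ≤ 2 * 3.1416 * (c * g * (10 / 91)) := by
    have hπ := Real.pi_lt_d4
    have h1 : 0 ≤ c * g * (10 / 91) := by positivity
    have h2 : 2 * π ≤ 2 * 3.1416 := by linarith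
    exact mul_le_mul_of_nonneg_right h2 h1
  have f4 : 0.9979 * 2 * α * h * (0.99 * c / 8 * M - 3 * c / 8 * k0) =
      c * (0.9979 * 2 * (0.99 / 8 * (α * (h * M)) - 3 / 8 * (α * h * k0))) := by ring
  have f5 : c * (0.9979 * 2 * (0.99 / 8 * (α * (h * M)) - 3 / 8 * (α * h * k0))) ≤
      c * (2 * 3.1416 * (g * (10 / 91))) := by
    rw [← f4]
    refine f1.trans (f2.trans (f3.trans (le_of_eq ?_)))
    ring
  have f6 := le_of_mul_le_mul_left f5 hc0
  norm_num at f6 hQ hk00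
  linarith

theorem k0_le {α y h : ℝ} (hα : 0 < α) (hh : 0 < h) (hh2 : 10 ^ 9 * h ≤ α) (z : ℝ) :
    α * h * qq α y z ≤ 0.00001 := by
  have hK0 : qq α y z ≤ 2 / α ^ 2 := by
    refine (min_le_left _ _).trans ?_
    unfold KK
    have e1 : 1 / (α ^ 2 + (0 + y) ^ 2) ≤ 1 / α ^ 2 :=
      one_div_le_one_div_of_le (by positivity) (by nlinarith [sq_nonneg (0 + y)])
    have e2 : 1 / (α ^ 2 + (0 - y) ^ 2) ≤ 1 / α ^ 2 :=
      one_div_le_one_div_of_le (by positivity) (by nlinarith [sq_nonneg (0 - y)])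
    have e3 : 2 / α ^ 2 = 1 / α ^ 2 + 1 / α ^ 2 := by ring
    linarith
  have h3 : α * h * qq α y z ≤ α * h * (2 / α ^ 2) := by gcongr
  have h4 : α * h * (2 / α ^ 2) = 2 * h / α := by field_simp
  have h5 : 2 * h / α ≤ 0.00001 := by
    rw [div_le_iff₀ hα]; linarith
  linarith

/-- failure of all windows gives a lower bound for all partial sums -/
theorem partial5 {N : ℕ} {φ : ℕ → ℝ} {c : ℝ} (hc0 : 0 < c) (hφ0 : ∀ j, 0 ≤ φ j)
    (hfail : ∀ L, 3 ≤ L → L ≤ N →
      c * L < 8 * (∑ j ∈ Finset.range L, φ j) + c * (((L / 100 : ℕ) : ℝ) + 3)) :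
    ∀ L ≤ N, (0.99 * c / 8) * L - 3 * c / 8 ≤ ∑ j ∈ Finset.range L, φ j := by
  intro L hLN
  rcases Nat.lt_or_ge L 3 with h3 | h3
  · have h4 : (L : ℝ) ≤ 2 := by exact_mod_cast (by omega : L ≤ 2)
    have h5 : 0 ≤ ∑ j ∈ Finset.range L, φ j := Finset.sum_nonneg fun j _ => hφ0 j
    have h6 : c * L ≤ c * 2 := by gcongr
    linarith
  · have h4 := hfail L h3 hLN
    have h5 : ((L / 100 : ℕ) : ℝ) ≤ L / 100 := by
      have := Nat.cast_div_le (m := L) (n := 100) (α := ℝ)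
      simpa using this
    have h6 : c * (((L / 100 : ℕ) : ℝ) + 3) ≤ c * (L / 100 + 3) := by gcongr
    linarith

/-- Costs of the cells and one window with small average cost. -/
theorem count5 {w0 A ε c h g : ℝ} {s : ℂ} {m : ℕ} {a : ℕ → ℂ}
    (hreal : ∀ k, (starRingEnd ℂ) (a k) = a k) (h0 : 0 < w0) (h1 : 10 ^ 5 * w0 ≤ s.re)
    (h2 : s.re ≤ 1 / 1000) (hh : 0 < h) (hh2 : 10 ^ 10 * h ≤ s.re) (hA1 : 1 ≤ A)
    (hA : ∀ x : ℝ, ‖expSum m a ((w0 : ℂ) - x * I)‖ ≤ A) (hε : 0 < ε) (hs : ε ≤ ‖expSum m a s‖)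
    (hg0 : 0 < g) (hg1 : g ≤ 1) (hg2 : g ≤ 1.26 - 0.9989 * |s.im| / (4 * (s.re - w0)))
    (hc0 : 0 < c) (hc : 9.1 * (Real.log A - Real.log ε) ≤ c * g) :
    ∃ (L : ℕ) (ξ φ : ℕ → ℝ), 3 ≤ L ∧ (L : ℝ) * h ≤ 204 * s.re ∧ (∀ j, 0 ≤ φ j) ∧
      (∀ j < L, j * h ≤ ξ j ∧ ξ j ≤ (j + 1) * h ∧
        Real.exp (-(φ j)) ≤ ‖expSum m a ((w0 : ℂ) - ξ j * I)‖) ∧
      8 * (∑ j ∈ Finset.range L, φ j) + c * (((L / 100 : ℕ) : ℝ) + 3) ≤ c * L := by
  have hsre : 0 < s.re := by linarith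
  obtain ⟨α, hα'⟩ : ∃ α, α = s.re - w0 := ⟨_, rfl⟩
  rw [← hα'] at hg2
  have hα : 0 < α := by linarith
  have hρ : |s.im| ≤ 5.1 * α := by
    have h3 : 0.9989 * |s.im| / (4 * α) ≤ 1.26 := by linarith
    rw [div_le_iff₀ (by positivity)] at h3
    linarith
  -- the number of cells
  obtain ⟨N, hN⟩ : ∃ N : ℕ, N = ⌊203 * s.re / h⌋₊ := ⟨_, rfl⟩
  have hN1 : (N : ℝ) * h ≤ 203 * s.re := by
    have : (N : ℝ) ≤ 203 * s.re / h := by rw [hN]; exact Nat.floor_le (by positivity)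
    rwa [le_div_iff₀ hh] at this
  have hN2 : 203 * s.re ≤ ((N : ℝ) + 1) * h := by
    have h3 : 203 * s.re / h < N + 1 := by rw [hN]; exact Nat.lt_floor_add_one _
    rw [div_lt_iff₀ hh] at h3
    exact h3.le
  have hN3 : 203 * α ≤ ((N : ℝ) + 1) * h := by linarith
  have hNbig : (1 : ℝ) ≤ N := by
    have h3 : 2 * h ≤ ((N : ℝ) + 1) * h := by linarith
    have := le_of_mul_le_mul_right h3 hh
    linarith
  have hN1n : 1 ≤ N := by exact_mod_cast hNbig
  have hNh : ((N : ℕ) : ℝ) * h ≤ 1 := by linarith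
  have hhα : 10 ^ 9 * h ≤ α := by linarith
  -- kernel weights
  obtain ⟨k, hk⟩ : ∃ k : ℕ → ℝ, k = fun j : ℕ => qq α s.im (((j : ℝ) + 1) * h) := ⟨_, rfl⟩
  have hkpos : ∀ j, 0 < k j := by
    intro j
    rw [hk]
    exact lt_min (KK_pos hα _ _) (KK_pos hα _ _)
  have hkanti : ∀ j, k (j + 1) ≤ k j := by
    intro j
    simp only [hk]
    apply qq_anti hα (by positivity)
    push_cast
    nlinarith
  obtain ⟨φ, x, hφ0, hx, hmain⟩ := costs5 (N := N) (kap := fun j => 0.9979 * (2 * α * k j)) hreal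
    (by linarith : w0 < s.re) hh hNh hA1 hA hε hs (fun j => by have := hkpos j; positivity) (by
      intro j _ ξ hξ1 hξ2
      refine le_trans ?_ (PK_pair7 h0 (by linarith) h2)
      have hξ0 : 0 ≤ ξ := le_trans (by positivity) hξ1
      have h5 := qq_le hα (y := s.im) hξ0 hξ2
      rw [hk, ← hα']
      unfold KK at h5
      have h3 : 0 ≤ 2 * α := by positivity
      exact mul_le_mul_of_nonneg_left (mul_le_mul_of_nonneg_left h5 h3) (by norm_num))
  by_contra hcon
  push Not at hcon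
  have hfail : ∀ L, 3 ≤ L → L ≤ N →
      c * L < 8 * (∑ j ∈ Finset.range L, φ j) + c * (((L / 100 : ℕ) : ℝ) + 3) := by
    intro L hL3 hLN
    have hLN' : (L : ℝ) ≤ N := by exact_mod_cast hLN
    refine hcon L x φ hL3 ?_ hφ0 (fun j hj => hx j (by omega))
    have : (L : ℝ) * h ≤ N * h := by gcongr
    linarith
  have hS := partial5 hc0 hφ0 hfail
  have habel := abel5 hN1n (φ := φ) (k := k) (σ := 0.99 * c / 8) (τ := 3 * c / 8) hS
    (fun j => (hkpos j).le) hkanti
  have hlow := sum_low (N := N) hα hρ hh hhα hN3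
  have hkap_sum : (∑ j ∈ Finset.range N, φ j * (0.9979 * (2 * α * k j) * h)) =
      0.9979 * 2 * α * h * ∑ j ∈ Finset.range N, φ j * k j := by
    rw [Finset.mul_sum]
    exact Finset.sum_congr rfl fun j _ => by ring
  rw [hkap_sum] at hmain
  have hk00 : α * h * k 0 ≤ 0.00001 := by
    rw [hk]
    exact k0_le hα hh hhα _
  have hgmin : g ≤ min 1 (1.262 - |s.im| / α / 4) := by
    apply le_min hg1
    have h3 : |s.im| / α ≤ 5.1 := by rw [div_le_iff₀ hα]; exact hρ
    have h4 : 0.9989 * |s.im| / (4 * α) = 0.9989 * (|s.im| / α) / 4 := by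
      field_simp
    rw [h4] at hg2
    linarith
  have hQ : 2.8 * g + 0.0017 ≤ α * (h * ∑ j ∈ Finset.range N, k j) := by
    have h3 : 2.8 * g ≤ 2.8 * min 1 (1.262 - |s.im| / α / 4) := by linarith
    rw [hk]
    linarith
  exact arith5 hc0 hg0 hα hh hk00 hQ habel hmain hc

end Vale.Agent.P321.R3.H630
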