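import Vale.Agent.P321.R2.H613.Chain6

/-! # Chain lemma with costs instead of bad cells (total cost `T/8` per cell) -/

namespace Vale.Agent.P321.R3.H630

open Complex Finset Vale.Agent.P321.UB Vale.Agent.P321.R2.H613

/-- Left ends of gaps of length `d` are `d`-separated. -/
theorem card_gaps {L d : ℕ} (hd : 1 ≤ d) {S : Finset ℕ} {G : ℕ → Prop}
    (hS : ∀ t ∈ S, t < L - d ∧ G t ∧ ∀ m, t < m → m < t + d → ¬ G m) : S.card ≤ L / d := by
  classical
  have h1 : S.card ≤ (range (L / d)).card := by
    apply card_le_card_of_injOn (fun t => t / d)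
    · intro t ht
      have ht' := hS t ht
      have h2 : (t + d) / d = t / d + 1 := Nat.add_div_right t (by omega)
      have h3 : (t + d) / d ≤ L / d := Nat.div_le_div_right (by omega)
      simp only [coe_range, Set.mem_Iio]
      omega
    · intro t ht t' ht' he
      have ht1 := hS t ht
      have ht2 := hS t' ht'
      simp only at he
      by_contra hne
      rcases Nat.lt_or_gt_of_ne hne with hlt | hlt
      · have h5 : t + d ≤ t' := by
          by_contra hcon
          exact ht1.2.2 t' hlt (by omega) ht2.2.1
        have h2 : (t + d) / d = t / d + 1 := Nat.add_div_right t (by omega)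
        have h3 : (t + d) / d ≤ t' / d := Nat.div_le_div_right h5
        omega
      · have h5 : t' + d ≤ t := by
          by_contra hcon
          exact ht2.2.2 t hlt (by omega) ht1.2.1
        have h2 : (t' + d) / d = t' / d + 1 := Nat.add_div_right t' (by omega)
        have h3 : (t' + d) / d ≤ t / d := Nat.div_le_div_right h5
        omega
  simpa using h1

/-- The counting step with weights. -/
theorem exists_translate {L d y : ℕ} (hd : 1 ≤ d) {p : ℕ → ℝ} (hp0 : ∀ j, 0 ≤ p j)
    {G : ℕ → Prop} (hG : ∀ j, ¬ G j → 1 ≤ p j)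
    (hL : 4 * (∑ j ∈ range L, p j) + (L / d : ℕ) + 3 ≤ L) (hyd : y + d < L)
    (hgap : ∀ m, y < m → m < y + d → ¬ G m) :
    ∃ t, t + d < L ∧ G t ∧ G (t + d) ∧ (t ≤ y → p t + p (t + d) + p (y - t) < 1) ∧
      (y ≤ t → p t + p (t + d) + p (t - y) < 1) ∧
      ∃ m, t < m ∧ m < t + d ∧ G m := by
  classical
  by_contra hcon
  push Not at hcon
  set w : ℕ → ℕ := fun t => if t ≤ y then y - t else t - y with hw
  set A5 := (range (L - d)).filter
    (fun t => G t ∧ ∀ m, t < m → m < t + d → ¬ G m) with hA5
  have hpt : ∀ t ∈ range (L - d), 1 ≤ p t + p (t + d) + p (w t) + (if t ∈ A5 then 1 else 0) := by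
    intro t ht
    have ht' := mem_range.1 ht
    have n1 := hp0 t
    have n2 := hp0 (t + d)
    have n3 := hp0 (w t)
    by_cases h5 : t ∈ A5
    · rw [if_pos h5]; linarith
    · rw [if_neg h5, add_zero]
      by_cases g1 : G t
      · by_cases g2 : G (t + d)
        · by_contra hlt
          push Not at hlt
          have h1 : t ≤ y → p t + p (t + d) + p (y - t) < 1 := by
            intro h
            simp only [hw, if_pos h] at hlt
            exact hlt
          have h2 : y ≤ t → p t + p (t + d) + p (t - y) < 1 := by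
            intro h
            by_cases h3 : t ≤ y
            · have : t = y := le_antisymm h3 h
              subst this
              simp only [hw, if_pos h3] at hlt
              exact hlt
            · simp only [hw, if_neg h3] at hlt
              exact hlt
          have h3 := hcon t (by omega) g1 g2 h1 h2
          exact h5 (mem_filter.2 ⟨ht, g1, h3⟩)
        · have := hG _ g2
          linarith
      · have := hG _ g1
        linarith
  have hsum : ((L - d : ℕ) : ℝ) ≤ (∑ t ∈ range (L - d), p t) + (∑ t ∈ range (L - d), p (t + d)) +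
      (∑ t ∈ range (L - d), p (w t)) + A5.card := by
    have h1 := sum_le_sum hpt
    rw [sum_const, card_range, nsmul_eq_mul, mul_one, sum_add_distrib, sum_add_distrib,
      sum_add_distrib] at h1
    have h2 : (∑ t ∈ range (L - d), (if t ∈ A5 then (1 : ℝ) else 0)) = A5.card := by
      have hsub : A5 ⊆ range (L - d) := filter_subset _ _
      rw [sum_ite_mem, inter_eq_right.2 hsub, sum_const, nsmul_eq_mul, mul_one]
    rw [h2] at h1
    exact h1
  set P := ∑ j ∈ range L, p j with hP
  have s1 : (∑ t ∈ range (L - d), p t) ≤ P :=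
    sum_le_sum_of_subset_of_nonneg (range_subset_range.2 (by omega)) (fun _ _ _ => hp0 _)
  have s2 : (∑ t ∈ range (L - d), p (t + d)) ≤ P := by
    have : (∑ t ∈ range (L - d), p (t + d)) = ∑ j ∈ (range (L - d)).map (addRightEmbedding d), p j := by
      rw [sum_map]; rfl
    rw [this]
    apply sum_le_sum_of_subset_of_nonneg _ (fun _ _ _ => hp0 _)
    intro j hj
    rw [mem_map] at hj
    obtain ⟨t, ht, rfl⟩ := hj
    rw [mem_range] at ht ⊢
    simp only [addRightEmbedding_apply]
    omega
  -- the cells `y < j < y + d` are bad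
  have hint : ((d : ℝ) - 1) + (∑ j ∈ range (y + 1), p j) ≤ P := by
    have hdisj : Disjoint (Ioo y (y + d)) (range (y + 1)) := by
      rw [disjoint_left]
      intro x hx hx'
      rw [mem_Ioo] at hx
      rw [mem_range] at hx'
      omega
    have h1 : (∑ j ∈ Ioo y (y + d) ∪ range (y + 1), p j) ≤ P := by
      apply sum_le_sum_of_subset_of_nonneg _ (fun _ _ _ => hp0 _)
      intro x hx
      rw [mem_union, mem_Ioo, mem_range] at hx
      rw [mem_range]
      omega
    rw [sum_union hdisj] at h1
    have h2 : ((Ioo y (y + d)).card : ℝ) ≤ ∑ j ∈ Ioo y (y + d), p j := by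
      have := card_nsmul_le_sum (Ioo y (y + d)) p 1 (fun x hx => by
        rw [mem_Ioo] at hx
        exact hG x (hgap x hx.1 hx.2))
      simpa using this
    rw [Nat.card_Ioo] at h2
    have h3 : ((y + d - y - 1 : ℕ) : ℝ) = (d : ℝ) - 1 := by
      rw [show y + d - y - 1 = d - 1 by omega, Nat.cast_sub hd, Nat.cast_one]
    rw [h3] at h2
    linarith
  have s3 : (∑ t ∈ range (L - d), p (w t)) ≤ (P - ((d : ℝ) - 1)) + P := by
    have hsplit : (∑ t ∈ range (L - d), p (w t)) ≤
        (∑ t ∈ range (y + 1), p (y - t)) + ∑ t ∈ range L, p t := by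
      have h1 : (∑ t ∈ range (L - d), p (w t)) =
          (∑ t ∈ (range (L - d)).filter (fun t => t ≤ y), p (w t)) +
            ∑ t ∈ (range (L - d)).filter (fun t => ¬ t ≤ y), p (w t) :=
        (sum_filter_add_sum_filter_not _ _ _).symm
      rw [h1]
      apply add_le_add
      · have h2 : (∑ t ∈ (range (L - d)).filter (fun t => t ≤ y), p (w t)) =
            ∑ t ∈ (range (L - d)).filter (fun t => t ≤ y), p (y - t) := by
          apply sum_congr rfl
          intro t ht
          rw [mem_filter] at ht
          simp only [hw, if_pos ht.2]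
        rw [h2]
        apply sum_le_sum_of_subset_of_nonneg _ (fun _ _ _ => hp0 _)
        intro t ht
        rw [mem_filter] at ht
        rw [mem_range]
        omega
      · have h2 : (∑ t ∈ (range (L - d)).filter (fun t => ¬ t ≤ y), p (w t)) =
            ∑ j ∈ ((range (L - d)).filter (fun t => ¬ t ≤ y)).image (fun t => t - y), p j := by
          rw [sum_image]
          · apply sum_congr rfl
            intro t ht
            rw [mem_filter] at ht
            simp only [hw, if_neg ht.2]
          · intro t ht t' ht' he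
            simp only [coe_filter, Set.mem_ofPred_eq] at ht ht'
            simp only at he
            omega
        rw [h2]
        apply sum_le_sum_of_subset_of_nonneg _ (fun _ _ _ => hp0 _)
        intro j hj
        rw [mem_image] at hj
        obtain ⟨t, ht, rfl⟩ := hj
        rw [mem_filter, mem_range] at ht
        rw [mem_range]
        omega
    have hrefl : (∑ t ∈ range (y + 1), p (y - t)) = ∑ t ∈ range (y + 1), p t := by
      have := sum_range_reflect p (y + 1)
      rw [← this]
      apply sum_congr rfl
      intro t _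
      congr 1
    rw [hrefl] at hsplit
    linarith
  have i5 : A5.card ≤ L / d := by
    apply card_gaps hd (G := G)
    intro t ht
    rw [hA5, mem_filter, mem_range] at ht
    exact ht
  have i5' : (A5.card : ℝ) ≤ (L / d : ℕ) := by exact_mod_cast i5
  have hLd : ((L - d : ℕ) : ℝ) = (L : ℝ) - d := by
    rw [Nat.cast_sub (by omega)]
  rw [hLd] at hsum
  linarith

/-- Chain lemma with costs: `u` is an approximate character on the cells `[0,L)` whose average cost
is below `T / 8`; relations are available when the sum of the three costs is at most `T`. -/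
theorem chain5 {L C : ℕ} (hC : 1 ≤ C) {φ : ℕ → ℝ} {T : ℝ} (hT : 0 < T) (hφ : ∀ j, 0 ≤ φ j)
    (hsum : 8 * (∑ j ∈ range L, φ j) + T * ((L / C : ℕ) + 3) ≤ T * L)
    {u : ℕ → ℂ} {e : ℝ} (he : 0 ≤ e)
    (hu : ∀ a < L, 2 * φ a ≤ T → ‖u a‖ = 1)
    (hadj : ∀ a k, 1 ≤ k → k ≤ C → a + k < L → 2 * φ a ≤ T → 2 * φ (a + k) ≤ T →
      ‖u (a + k) - u a‖ ≤ e)
    (hmul : ∀ a b, a + b < L → 2 * φ a ≤ T → 2 * φ (a + b) ≤ T → φ a + φ b + φ (a + b) ≤ T →
      ‖u b‖ = 1 ∧ ‖u a * u b - u (a + b)‖ ≤ e) :
    ∀ a < L, 2 * φ a ≤ T → ‖u a - 1‖ ≤ 4 * L * e := by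
  classical
  set p : ℕ → ℝ := fun j => min 1 (2 * φ j / T) with hp
  have hp0 : ∀ j, 0 ≤ p j := fun j => le_min zero_le_one (div_nonneg (by linarith [hφ j]) hT.le)
  have hp1 : ∀ j, p j ≤ 1 := fun j => min_le_left _ _
  have hpφ : ∀ j, p j ≤ 2 * φ j / T := fun j => min_le_right _ _
  have hG : ∀ j, ¬ 2 * φ j ≤ T → 1 ≤ p j := by
    intro j hj
    push Not at hj
    apply le_min le_rfl
    rw [le_div_iff₀ hT]
    linarith
  -- from the weights to the costs
  have hpT : ∀ a b, p a + p b < 1 → φ a + φ b ≤ T / 2 := by
    intro a b h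
    have ha : p a < 1 := by linarith [hp0 b]
    have hb : p b < 1 := by linarith [hp0 a]
    have e1 : p a = 2 * φ a / T := by
      simp only [hp] at ha ⊢
      exact min_eq_right (le_of_lt (by
        by_contra hc
        push Not at hc
        rw [min_eq_left hc] at ha
        exact lt_irrefl _ ha))
    have e2 : p b = 2 * φ b / T := by
      simp only [hp] at hb ⊢
      exact min_eq_right (le_of_lt (by
        by_contra hc
        push Not at hc
        rw [min_eq_left hc] at hb
        exact lt_irrefl _ hb))
    rw [e1, e2, ← add_div, div_lt_iff₀ hT] at h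
    linarith
  set P := ∑ j ∈ range L, p j with hP
  have hP0 : 0 ≤ P := sum_nonneg (fun j _ => hp0 j)
  have hPL : 4 * P + (L / C : ℕ) + 3 ≤ L := by
    have h1 : P ≤ 2 * (∑ j ∈ range L, φ j) / T := by
      rw [mul_sum, sum_div]
      exact sum_le_sum (fun j _ => hpφ j)
    have h2 : P * T ≤ 2 * (∑ j ∈ range L, φ j) := by
      rwa [le_div_iff₀ hT] at h1
    have h3 : T * (4 * P + (L / C : ℕ) + 3) ≤ T * L := by
      have : T * (4 * P + (L / C : ℕ) + 3) = 4 * (P * T) + T * ((L / C : ℕ) + 3) := by ring
      rw [this]
      linarith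
    exact le_of_mul_le_mul_left h3 hT
  have hLC0 : (0 : ℝ) ≤ (L / C : ℕ) := Nat.cast_nonneg _
  -- the main induction
  have key : ∀ d, 1 ≤ d → ∀ y, y + d < L → 2 * φ y ≤ T → 2 * φ (y + d) ≤ T →
      ‖u (y + d) - u y‖ ≤ (3 * d - 2) * e := by
    intro d
    induction d using Nat.strong_induction_on with
    | _ d ih =>
      intro hd y hyd hgy hgyd
      have hd1 : (1 : ℝ) ≤ d := by exact_mod_cast hd
      have split : ∀ t, t + d < L → 2 * φ t ≤ T → 2 * φ (t + d) ≤ T →
          (∃ m, t < m ∧ m < t + d ∧ 2 * φ m ≤ T) → ‖u (t + d) - u t‖ ≤ (3 * d - 4) * e := by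
        rintro t htd hgt hgtd ⟨m, hm1, hm2, hgm⟩
        obtain ⟨q1, rfl⟩ := Nat.exists_eq_add_of_lt hm1
        obtain ⟨q2, hq⟩ := Nat.exists_eq_add_of_lt hm2
        have hdq : d = (q1 + 1) + (q2 + 1) := by omega
        have e1 := ih (q1 + 1) (by omega) (by omega) t (by omega) hgt (by
          rwa [show t + (q1 + 1) = t + q1 + 1 by omega])
        have e2 := ih (q2 + 1) (by omega) (by omega) (t + q1 + 1) (by omega) hgm (by
          rwa [show t + q1 + 1 + (q2 + 1) = t + d by omega])
        rw [show t + (q1 + 1) = t + q1 + 1 by omega] at e1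
        rw [show t + q1 + 1 + (q2 + 1) = t + d by omega] at e2
        have h3 := norm_add_le (u (t + d) - u (t + q1 + 1)) (u (t + q1 + 1) - u t)
        rw [sub_add_sub_cancel] at h3
        have h4 : (d : ℝ) = ((q1 + 1 : ℕ) : ℝ) + ((q2 + 1 : ℕ) : ℝ) := by
          rw [hdq]; push_cast; ring
        rw [h4]
        refine h3.trans ((add_le_add e2 e1).trans (le_of_eq ?_))
        ring
      rcases Nat.lt_or_ge C d with hdC | hdC
      · by_cases hint : ∃ m, y < m ∧ m < y + d ∧ 2 * φ m ≤ T
        · refine (split y hyd hgy hgyd hint).trans ?_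
          apply mul_le_mul_of_nonneg_right _ he
          linarith
        · have hint' : ∀ m, y < m → m < y + d → ¬ 2 * φ m ≤ T := fun m h1 h2 h3 =>
            hint ⟨m, h1, h2, h3⟩
          have hLd : L / d ≤ L / C := Nat.div_le_div_left hdC.le (by omega)
          have hLd' : ((L / d : ℕ) : ℝ) ≤ (L / C : ℕ) := by exact_mod_cast hLd
          obtain ⟨t, ht, hgt, hgtd, hw1, hw2, hm⟩ :=
            exists_translate hd (L := L) (y := y) (p := p) hp0 (G := fun j => 2 * φ j ≤ T) hG
              (by linarith) hyd hint'
          have hsp := split t ht hgt hgtd hm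
          rcases le_total t y with hty | hyt
          · have hw := hw1 hty
            obtain ⟨w, rfl⟩ := Nat.exists_eq_add_of_le hty
            rw [show t + w - t = w by omega] at hw
            have c1 := hpT t w (by linarith [hp0 (t + d)])
            have c2 := hpT (t + d) w (by linarith [hp0 t])
            obtain ⟨n1, e2⟩ := hmul t w (by omega) hgt hgy (by linarith)
            have e1 : ‖u (t + d) * u w - u (t + w + d)‖ ≤ e := by
              have h' : t + d + w = t + w + d := by omega
              have := (hmul (t + d) w (by omega) hgtd (by rw [h']; exact hgyd)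
                (by rw [h']; linarith)).2
              rwa [h'] at this
            have hid : u (t + w + d) - u (t + w) = (u (t + d) - u t) * u w -
                (u (t + d) * u w - u (t + w + d)) + (u t * u w - u (t + w)) := by ring
            rw [hid]
            have t1 := norm_add_le ((u (t + d) - u t) * u w -
                (u (t + d) * u w - u (t + w + d))) (u t * u w - u (t + w))
            have t2 := norm_sub_le ((u (t + d) - u t) * u w) (u (t + d) * u w - u (t + w + d))
            rw [norm_mul, n1, mul_one] at t2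
            linarith
          · have hw := hw2 hyt
            obtain ⟨w, rfl⟩ := Nat.exists_eq_add_of_le hyt
            rw [show y + w - y = w by omega] at hw
            have c1 := hpT (y + w) w (by linarith [hp0 (y + w + d)])
            have c2 := hpT (y + w + d) w (by linarith [hp0 (y + w)])
            obtain ⟨n1, e2⟩ := hmul y w (by omega) hgy hgt (by linarith)
            have e1 : ‖u (y + d) * u w - u (y + w + d)‖ ≤ e := by
              have h' : y + d + w = y + w + d := by omega
              have := (hmul (y + d) w (by omega) hgyd (by rw [h']; exact hgtd)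
                (by rw [h']; linarith)).2
              rwa [h'] at this
            have hid : (u (y + d) - u y) * u w = (u (y + w + d) - u (y + w)) +
                (u (y + d) * u w - u (y + w + d)) - (u y * u w - u (y + w)) := by ring
            have hn : ‖u (y + d) - u y‖ = ‖(u (y + d) - u y) * u w‖ := by
              rw [norm_mul, n1, mul_one]
            rw [hn, hid]
            have t1 := norm_sub_le ((u (y + w + d) - u (y + w)) +
                (u (y + d) * u w - u (y + w + d))) (u y * u w - u (y + w))
            have t2 := norm_add_le (u (y + w + d) - u (y + w))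
                (u (y + d) * u w - u (y + w + d))
            linarith
      · refine (hadj y d hd hdC hyd hgy hgyd).trans ?_
        have : (1 : ℝ) * e ≤ (3 * d - 2) * e := by
          apply mul_le_mul_of_nonneg_right _ he
          linarith
        linarith
  have hle : ∀ a k, a + k < L → 2 * φ a ≤ T → 2 * φ (a + k) ≤ T →
      ‖u (a + k) - u a‖ ≤ 3 * k * e := by
    intro a k hk hga hgk
    rcases Nat.eq_zero_or_pos k with rfl | hk0
    · simp
    · refine (key k hk0 a hk hga hgk).trans ?_
      apply mul_le_mul_of_nonneg_right _ he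
      linarith
  -- the first good cell
  have hex : ∃ a, a < L ∧ 2 * φ a ≤ T := by
    by_contra hcon
    push Not at hcon
    have h1 : (L : ℝ) ≤ P := by
      have := card_nsmul_le_sum (range L) p 1 (fun x hx =>
        hG x (not_le.2 (hcon x (mem_range.1 hx))))
      simpa using this
    have hL0 : (0 : ℝ) ≤ L := Nat.cast_nonneg _
    linarith
  obtain ⟨a0, ⟨ha0, hg0⟩, hmin⟩ : ∃ a, (a < L ∧ 2 * φ a ≤ T) ∧
      ∀ b < a, ¬ (b < L ∧ 2 * φ b ≤ T) := ⟨Nat.find hex, Nat.find_spec hex,
      fun b hb => Nat.find_min hex hb⟩
  have ha0P : (a0 : ℝ) ≤ P := by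
    have h1 : (a0 : ℝ) ≤ ∑ j ∈ range a0, p j := by
      have := card_nsmul_le_sum (range a0) p 1 (fun x hx => by
        have hx' := mem_range.1 hx
        exact hG x (fun h => hmin x hx' ⟨by omega, h⟩))
      simpa using this
    exact h1.trans (sum_le_sum_of_subset_of_nonneg (range_subset_range.2 ha0.le)
      (fun _ _ _ => hp0 _))
  obtain ⟨b, hb, hgb, hgb', hcost⟩ : ∃ b, a0 + b < L ∧ 2 * φ b ≤ T ∧ 2 * φ (a0 + b) ≤ T ∧
      φ a0 + φ b + φ (a0 + b) ≤ T := by
    by_contra hcon
    push Not at hcon
    have hpt : ∀ b ∈ range (L - a0), 1 ≤ p b + p (a0 + b) := by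
      intro b hb
      rw [mem_range] at hb
      by_contra hlt
      push Not at hlt
      have n1 := hp0 b
      have n2 := hp0 (a0 + b)
      have g1 : 2 * φ b ≤ T := by
        by_contra h
        have := hG _ h
        linarith
      have g2 : 2 * φ (a0 + b) ≤ T := by
        by_contra h
        have := hG _ h
        linarith
      have h3 := hcon b (by omega) g1 g2
      have h4 := hpT _ _ hlt
      linarith
    have h1 := sum_le_sum hpt
    rw [sum_const, card_range, nsmul_eq_mul, mul_one, sum_add_distrib] at h1
    have s1 : (∑ t ∈ range (L - a0), p t) ≤ P :=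
      sum_le_sum_of_subset_of_nonneg (range_subset_range.2 (by omega)) (fun _ _ _ => hp0 _)
    have s2 : (∑ t ∈ range (L - a0), p (a0 + t)) ≤ P := by
      have : (∑ t ∈ range (L - a0), p (a0 + t)) =
          ∑ j ∈ (range (L - a0)).map (addLeftEmbedding a0), p j := by
        rw [sum_map]; rfl
      rw [this]
      apply sum_le_sum_of_subset_of_nonneg _ (fun _ _ _ => hp0 _)
      intro j hj
      rw [mem_map] at hj
      obtain ⟨t, ht, rfl⟩ := hj
      rw [mem_range] at ht ⊢
      simp only [addLeftEmbedding_apply]
      omega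
    rw [Nat.cast_sub ha0.le] at h1
    linarith
  have h0 : ‖u a0 - 1‖ ≤ (3 * a0 + 1) * e := by
    obtain ⟨-, e1⟩ := hmul a0 b hb hg0 hgb' hcost
    have e2 := hle b a0 (by omega) hgb (by rwa [add_comm])
    have n1 : ‖u b‖ = 1 := hu b (by omega) hgb
    have hid : (u a0 - 1) * u b = (u a0 * u b - u (a0 + b)) + (u (b + a0) - u b) := by
      rw [add_comm b a0]; ring
    have hn : ‖u a0 - 1‖ = ‖(u a0 - 1) * u b‖ := by rw [norm_mul, n1, mul_one]
    rw [hn, hid]
    refine (norm_add_le _ _).trans ?_
    linarith
  intro a ha hga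
  have h1 : ‖u a - u a0‖ ≤ 3 * L * e := by
    rcases le_total a0 a with h | h
    · obtain ⟨k, rfl⟩ := Nat.exists_eq_add_of_le h
      refine (hle a0 k ha hg0 hga).trans ?_
      have : (k : ℝ) ≤ L := by
        have : k ≤ L := by omega
        exact_mod_cast this
      gcongr
    · obtain ⟨k, rfl⟩ := Nat.exists_eq_add_of_le h
      rw [norm_sub_rev]
      refine (hle a k (by omega) hga hg0).trans ?_
      have : (k : ℝ) ≤ L := by
        have : k ≤ L := by omega
        exact_mod_cast this
      gcongr
  have h2 := norm_add_le (u a - u a0) (u a0 - 1)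
  rw [sub_add_sub_cancel] at h2
  have h3 : (3 * (a0 : ℝ) + 1) * e ≤ L * e := by
    apply mul_le_mul_of_nonneg_right _ he
    linarith
  linarith

end Vale.Agent.P321.R3.H630
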