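import Vale.Agent.P321.Defs

/-! # `T_q(n)` is nondecreasing in `n` and in `q` -/

namespace Vale.Agent.P321.R3.H630

open scoped unitInterval ENNReal

/-- Apply a randomized map to every entry of a list, independently. -/
noncomputable def each (k : List Bool → PMF (List Bool)) : List (List Bool) → PMF (List (List Bool))
  | [] => PMF.pure []
  | t :: ts => (k t).bind fun u => (each k ts).map fun us => u :: us

theorem tracesLaw_each {q q' : I} {x y : List Bool} {k : List Bool → PMF (List Bool)}
    (h : traceLaw q' y = (traceLaw q x).bind k) (m : ℕ) :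
    tracesLaw q' y m = (tracesLaw q x m).bind (each k) := by
  induction m with
  | zero => simp [tracesLaw, each]
  | succ m ih =>
    rw [tracesLaw, tracesLaw, h, ih]
    simp only [PMF.bind_bind, PMF.map, each, PMF.pure_bind, Function.comp_def]
    congr 1
    funext t
    rw [PMF.bind_comm]

/-- Transport of estimators. -/
theorem T_le_of_sim {q q' : I} {n n' : ℕ} (k : List Bool → PMF (List Bool))
    (φ : (Fin n → Bool) → (Fin n' → Bool)) (ψ : (Fin n' → Bool) → (Fin n → Bool))
    (hψ : ∀ x, ψ (φ x) = x)
    (h : ∀ x : Fin n → Bool, traceLaw q' (List.ofFn (φ x)) = (traceLaw q (List.ofFn x)).bind k) :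
    T q n ≤ T q' n' := by
  unfold T
  refine le_iInf fun m => le_iInf fun hm => ?_
  obtain ⟨est, hest⟩ := hm
  refine iInf_le_of_le m (iInf_le_of_le ⟨fun ts => ((each k ts).bind est).map ψ, fun x => ?_⟩ le_rfl)
  have h1 : (tracesLaw q (List.ofFn x) m).bind (fun ts => ((each k ts).bind est).map ψ) =
      ((tracesLaw q' (List.ofFn (φ x)) m).bind est).map ψ := by
    rw [tracesLaw_each (h x), PMF.bind_bind, PMF.map_bind]
  rw [h1]
  refine (hest (φ x)).trans ?_
  rw [PMF.map_apply]
  refine le_trans ?_ (ENNReal.le_tsum (φ x))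
  rw [if_pos (hψ x).symm]

/-- `T_q(n)` is nondecreasing in `n`. -/
theorem T_mono_n (q : I) : Monotone (T q) := by
  refine monotone_nat_of_le_succ fun n => ?_
  refine T_le_of_sim (fun t => (coin q).map fun d => if d then t else true :: t)
    (fun x => Fin.cons true x) (fun y => Fin.tail y) (fun x => Fin.tail_cons _ _) fun x => ?_
  have h1 : List.ofFn (Fin.cons true x : Fin (n + 1) → Bool) = true :: List.ofFn x := by
    rw [List.ofFn_succ]
    simp
  rw [h1, traceLaw]
  simp only [PMF.map, Function.comp_def]
  rw [PMF.bind_comm]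

end Vale.Agent.P321.R3.H630
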