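import Vale.Agent.P321.R3.H630.MonoN

/-! # `T_q(n)` is nondecreasing in `q` -/

namespace Vale.Agent.P321.R3.H630

open scoped unitInterval ENNReal

theorem coin_true (q : I) : coin q true = ENNReal.ofReal q := by
  rw [coin, PMF.ofFintype_apply, if_pos rfl]

theorem coin_false (q : I) : coin q false = ENNReal.ofReal (1 - q) := by
  rw [coin, PMF.ofFintype_apply, if_neg Bool.false_ne_true]

/-- Two deletions, one after the other. -/
theorem coin_comp {q q' s : I} (h : (1 - (q' : ℝ)) = (1 - q) * (1 - s)) :
    coin q' = (coin q).bind fun d => if d then PMF.pure true else coin s := by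
  have hq0 : (0 : ℝ) ≤ q := q.2.1
  have hq1 : (0 : ℝ) ≤ 1 - q := by linarith [q.2.2]
  have hs0 : (0 : ℝ) ≤ s := s.2.1
  ext b
  rw [PMF.bind_apply, tsum_bool]
  cases b with
  | false =>
    rw [coin_false, coin_false, coin_true, h, ENNReal.ofReal_mul hq1]
    simp [coin_false]
  | true =>
    rw [coin_true, coin_false, coin_true]
    have h1 : (q' : ℝ) = (1 - q) * s + q := by linarith
    rw [h1, ENNReal.ofReal_add (mul_nonneg hq1 hs0) hq0, ENNReal.ofReal_mul hq1]
    simp [coin_true]

/-- A trace of a trace. -/
theorem traceLaw_comp {q q' s : I} (h : (1 - (q' : ℝ)) = (1 - q) * (1 - s)) (x : List Bool) :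
    traceLaw q' x = (traceLaw q x).bind (traceLaw s) := by
  induction x with
  | nil => simp [traceLaw]
  | cons b x ih =>
    have h1 : ∀ d : Bool, ((traceLaw q x).map fun t => if d then t else b :: t).bind (traceLaw s) =
        (if d then PMF.pure true else coin s).bind fun e =>
          (traceLaw q' x).map fun t => if e then t else b :: t := by
      intro d
      cases d with
      | true =>
        simp only [if_true, PMF.pure_bind, ih]
        have h2 : ∀ P : PMF (List Bool), (P.map fun t => t) = P := fun P => PMF.map_id P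
        rw [h2, h2]
      | false =>
        simp only [Bool.false_eq_true, if_false, ih]
        rw [PMF.map, PMF.bind_bind]
        simp only [Function.comp_def, PMF.pure_bind, traceLaw]
        rw [PMF.bind_comm]
        simp only [PMF.map_bind]
    conv_lhs => rw [traceLaw, coin_comp h, PMF.bind_bind]
    conv_rhs => rw [traceLaw, PMF.bind_bind]
    congr 1
    funext d
    exact (h1 d).symm

/-- `T_q(n)` is nondecreasing in `q`. -/
theorem T_mono_q {q q' : I} (h : q ≤ q') (n : ℕ) : T q n ≤ T q' n := by
  rcases eq_or_lt_of_le q.2.2 with h1 | h1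
  · have h2 : q = q' := le_antisymm h (Subtype.coe_le_coe.1 (by rw [h1]; exact q'.2.2))
    rw [h2]
  · have hq1 : (0 : ℝ) < 1 - q := by linarith
    have hqq : (q : ℝ) ≤ q' := h
    have hs : ((q' : ℝ) - q) / (1 - q) ∈ Set.Icc (0 : ℝ) 1 := by
      refine ⟨div_nonneg (by linarith) hq1.le, ?_⟩
      rw [div_le_one hq1]
      linarith [q'.2.2]
    refine T_le_of_sim (traceLaw ⟨_, hs⟩) id id (fun _ => rfl) fun x => ?_
    refine traceLaw_comp ?_ _
    change (1 - (q' : ℝ)) = (1 - q) * (1 - ((q' : ℝ) - q) / (1 - q))
    field_simp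
    ring

end Vale.Agent.P321.R3.H630
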